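import Vale.Agent.P182.H89.Struct
import Vale.Agent.P182.H578.Surj

/-!
# The symmetric commutant is trivial if the centre is scalar
-/

namespace Vale.Agent.P182.H481

open Module Vale.Agent.P182.H533 Vale.Agent.P182.H578 Vale.Agent.P182.H89

universe u v

variable {L : Type u} {V : Type v} [Field L] [AddCommGroup V] [Module L V]
  [FiniteDimensional L V] {q : V →ₗ[L] V →ₗ[L] L}

omit [FiniteDimensional L V] in
theorem mem_adj_one {T : End L V} : T ∈ adj q 1 ↔ IsSA q T := by
  constructor
  · intro h u v
    rw [h u v, one_mul]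
  · intro h u v
    rw [one_mul]
    exact h u v

omit [FiniteDimensional L V] in
theorem mem_adj_neg_one {T : End L V} : T ∈ adj q (-1) ↔ IsSk q T := by
  constructor
  · intro h u v
    rw [h u v, neg_one_mul]
  · intro h u v
    rw [neg_one_mul]
    exact h u v

/-- the trace form is nondegenerate -/
theorem eq_zero_of_trace_all {q : V →ₗ[L] V →ₗ[L] L} (hq : IsForm q) {Z : End L V}
    (h : ∀ X : End L V, LinearMap.trace L V (X * Z) = 0) : Z = 0 := by
  apply LinearMap.ext
  intro b
  refine hq.nondeg _ fun a => ?_
  rw [hq.symm, ← trace_rank_one, LinearMap.trace_mul_comm]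
  exact h _

/-- **the image of the skew operators under `[·, S]`** -/
theorem exists_skew (h2 : (2 : L) ≠ 0) (hq : IsForm q) {S X : End L V} (hS : IsSA q S)
    (hX : IsSA q X)
    (h : ∀ β, IsSA q β → β * S = S * β → LinearMap.trace L V (β * X) = 0) :
    ∃ A, IsSk q A ∧ A * S - S * A = X := by
  let ψ : adj q 1 →ₗ[L] Dual L (adj q (-1)) :=
    { toFun := fun β =>
        { toFun := fun A => LinearMap.trace L V
            ((β : End L V) * ((A : End L V) * S - S * (A : End L V)))
          map_add' := fun A A' => by
            rw [← map_add, ← mul_add]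
            congr 2
            show ((A : End L V) + (A' : End L V)) * S - S * ((A : End L V) + (A' : End L V)) = _
            rw [add_mul, mul_add]
            abel
          map_smul' := fun c A => by
            rw [RingHom.id_apply, ← map_smul, ← mul_smul_comm]
            congr 2
            show (c • (A : End L V)) * S - S * (c • (A : End L V)) = _
            rw [smul_mul_assoc, mul_smul_comm, smul_sub] }
      map_add' := fun β β' => by
        apply LinearMap.ext
        intro A
        show LinearMap.trace L V (((β : End L V) + (β' : End L V)) * _) =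
          LinearMap.trace L V ((β : End L V) * _) + LinearMap.trace L V ((β' : End L V) * _)
        rw [add_mul, map_add]
      map_smul' := fun c β => by
        apply LinearMap.ext
        intro A
        show LinearMap.trace L V ((c • (β : End L V)) * _) =
          c • LinearMap.trace L V ((β : End L V) * _)
        rw [smul_mul_assoc, map_smul] }
  let g : Dual L (adj q 1) :=
    { toFun := fun β => LinearMap.trace L V ((β : End L V) * X)
      map_add' := fun β β' => by
        show LinearMap.trace L V (((β : End L V) + (β' : End L V)) * X) = _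
        rw [add_mul, map_add]
      map_smul' := fun c β => by
        show LinearMap.trace L V ((c • (β : End L V)) * X) = _
        rw [smul_mul_assoc, map_smul]
        rfl }
  have e2 : (-1 : L) * (-1) = 1 := by ring
  have hψ : ∀ (β : adj q 1) (A : adj q (-1)), ψ β A = LinearMap.trace L V
      ((β : End L V) * ((A : End L V) * S - S * (A : End L V))) := fun _ _ => rfl
  have hcomp : ∀ β, ψ β = 0 → g β = 0 := by
    intro β hβ
    refine h β (mem_adj_one.1 β.2) ?_
    have hβ' := mem_adj_one.1 β.2
    have hsk : S * (β : End L V) - (β : End L V) * S ∈ adj q (-1) := by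
      rw [mem_adj_neg_one]
      intro u v
      rw [LinearMap.sub_apply, LinearMap.sub_apply, map_sub, map_sub, LinearMap.sub_apply,
        Module.End.mul_apply, Module.End.mul_apply, Module.End.mul_apply, Module.End.mul_apply,
        hS, hβ', hβ', hS]
      ring
    have h3 : S * (β : End L V) - (β : End L V) * S = 0 := by
      refine eq_zero_of_trace h2 e2 hq.symm hq.nondeg hsk fun A hA => ?_
      have h4 : ψ β ⟨A, hA⟩ = 0 := by rw [hβ]; rfl
      rw [hψ] at h4
      rw [← h4]
      show LinearMap.trace L V ((S * (β : End L V) - (β : End L V) * S) * A) =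
        LinearMap.trace L V ((β : End L V) * (A * S - S * A))
      rw [sub_mul, mul_sub, map_sub, map_sub, ← mul_assoc (β : End L V) A S,
        LinearMap.trace_mul_comm L ((β : End L V) * A) S, mul_assoc, mul_assoc]
    exact (sub_eq_zero.1 h3).symm
  obtain ⟨A, hA⟩ := lin_sys ψ g hcomp
  refine ⟨A, mem_adj_neg_one.1 A.2, ?_⟩
  have hAsk := mem_adj_neg_one.1 A.2
  have e1 : (1 : L) * 1 = 1 := one_mul 1
  have hsa : (A : End L V) * S - S * (A : End L V) - X ∈ adj q 1 := by
    rw [mem_adj_one]
    intro u v
    simp only [LinearMap.sub_apply, map_sub, Module.End.mul_apply]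
    rw [hAsk, hS, hS, hAsk, hX]
    ring
  rw [← sub_eq_zero]
  refine eq_zero_of_trace h2 e1 hq.symm hq.nondeg hsa fun β hβ => ?_
  have h4 := hA ⟨β, hβ⟩
  rw [hψ] at h4
  have h5 : LinearMap.trace L V (β * ((A : End L V) * S - S * (A : End L V))) =
      LinearMap.trace L V (β * X) := h4
  rw [LinearMap.trace_mul_comm, mul_sub, map_sub, h5, sub_self]

/-- powers commute with what commutes -/
theorem trace_mul_nilp {β S : End L V} (hc : β * S = S * β) (hS : IsNilpotent S) :
    LinearMap.trace L V (β * S) = 0 := by
  have h1 : IsNilpotent (β * S) := (show Commute β S from hc).isNilpotent_mul_left hS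
  exact (LinearMap.isNilpotent_trace_of_isNilpotent h1).eq_zero

/-- **[E]** -/
theorem stmtE [CharZero L] {S : Fin 3 → End L V} (hT : StmtT1 q S) : StmtE q S := by
  intro p hN hR N P z hz ζ hζ0 hzζ M hM hMS
  have h2 : (2 : L) ≠ 0 := two_ne_zero
  have hnil : ∀ s, IsNilpotent (S s) := fun s => ⟨p s, hN.pow s⟩
  have h1 : ∀ s, ∃ A, IsSk q A ∧ A * S s - S s * A = M * S s := by
    intro s
    refine exists_skew h2 hN.form (hN.sa s) ?_ fun β hβ hβS => ?_
    · intro u v
      rw [Module.End.mul_apply, hM, hN.sa s, ← Module.End.mul_apply, ← hMS, Module.End.mul_apply]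
    · rw [← mul_assoc]
      refine trace_mul_nilp ?_ (hnil s)
      rw [mul_assoc, hMS, ← mul_assoc, hβS, mul_assoc]
  choose A hA1 hA2 using h1
  let m : Fin 3 → ℤ := fun i => (i : ℤ)
  have hm : Function.Injective m := by
    intro i j h
    have h3 : ((i : ℕ) : ℤ) = ((j : ℕ) : ℤ) := h
    exact Fin.ext (by exact_mod_cast h3)
  obtain ⟨κ, hκ⟩ := hT p hN hR N P z hz ζ (by rw [hzζ, sub_self]; exact IsNilpotent.zero) m hm A
    hA1 (by simp only [hA2]; rw [← Finset.mul_sum, hN.sum, mul_zero])
  set a : Fin 3 → L := fun s => (m s : L) with ha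
  have hinj : Function.Injective a := by
    intro i j h
    exact hm (Int.cast_injective (α := L) h)
  set T := Ta S a with hTd
  have hMT : M * T = T * M := by
    rw [hTd]
    unfold Ta
    rw [Finset.mul_sum, Finset.sum_mul]
    exact Finset.sum_congr rfl fun s _ => by rw [mul_smul_comm, smul_mul_assoc, hMS]
  have hsum : ∑ s, (m s : L) • (A s * S s - S s * A s) = M * T := by
    rw [hTd]
    unfold Ta
    rw [Finset.mul_sum]
    exact Finset.sum_congr rfl fun s _ => by rw [hA2, mul_smul_comm]
  have hpow : T ^ N = (P a * ζ) • (1 : End L V) := by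
    rw [hz.pow a, hzζ, smul_smul]
  have hl : P a * ζ ≠ 0 := mul_ne_zero (hz.ne a hinj) hζ0
  refine ⟨κ, ?_⟩
  -- the operator `Y = (M - κ) T`
  have key : ∀ c : End L V, c * T = T * c →
      LinearMap.trace L V (c * ((M - κ • 1) * T)) = 0 := by
    intro c hc
    have h3 := hκ c hc
    rw [hsum] at h3
    rw [sub_mul, mul_sub, map_sub, h3, smul_mul_assoc, one_mul, mul_smul_comm, map_smul,
      smul_eq_mul, sub_self]
  have hYT : ((M - κ • 1) * T) * T = T * ((M - κ • 1) * T) := by
    rw [← mul_assoc T, mul_sub, sub_mul M, hMT, mul_smul_comm, mul_one, smul_mul_assoc, one_mul]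
  set Y := (M - κ • (1 : End L V)) * T with hY
  have hYc : ∀ j, Y * T ^ j = T ^ j * Y := fun j =>
    ((show Commute Y T from hYT).pow_right j)
  have hN1 : 1 ≤ N := le_trans (by norm_num) hz.three_le
  have h5 : T ^ (N - 1) * Y = 0 := by
    refine eq_zero_of_trace_all hN.form fun X => ?_
    set c : End L V := ∑ j ∈ Finset.range N, T ^ j * X * T ^ (N - 1 - j) with hc
    have hcT : c * T = T * c := by
      have h6 : T * c - c * T = T ^ N * X - X * T ^ N := by
        have h7 : ∀ j ∈ Finset.range N, T * (T ^ j * X * T ^ (N - 1 - j)) -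
            (T ^ j * X * T ^ (N - 1 - j)) * T =
            T ^ (j + 1) * X * T ^ (N - (j + 1)) - T ^ j * X * T ^ (N - j) := by
          intro j hj
          have hj' := Finset.mem_range.1 hj
          have e1 : N - 1 - j = N - (j + 1) := by omega
          have e2 : N - j = (N - (j + 1)) + 1 := by omega
          rw [e1, e2, pow_succ T (N - (j + 1)), pow_succ' T j]
          simp only [mul_assoc]
        rw [hc, Finset.mul_sum, Finset.sum_mul, ← Finset.sum_sub_distrib,
          Finset.sum_congr rfl h7,
          Finset.sum_range_sub (fun j => T ^ j * X * T ^ (N - j))]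
        simp
      have h8 : T ^ N * X - X * T ^ N = 0 := by
        rw [hpow, smul_mul_assoc, mul_smul_comm, one_mul, mul_one, sub_self]
      rw [h8, sub_eq_zero] at h6
      exact h6.symm
    have h9 := key c hcT
    have h10 : LinearMap.trace L V (c * Y) = (N : L) * LinearMap.trace L V (X * (T ^ (N - 1) * Y)) := by
      rw [hc, Finset.sum_mul, map_sum]
      have h11 : ∀ j ∈ Finset.range N, LinearMap.trace L V (T ^ j * X * T ^ (N - 1 - j) * Y) =
          LinearMap.trace L V (X * (T ^ (N - 1) * Y)) := by
        intro j hj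
        have hj' := Finset.mem_range.1 hj
        have e1 : N - 1 = (N - 1 - j) + j := by omega
        rw [mul_assoc, mul_assoc, LinearMap.trace_mul_comm, mul_assoc, mul_assoc, hYc j,
          ← mul_assoc (T ^ (N - 1 - j)) (T ^ j) Y, ← pow_add, ← e1]
      rw [Finset.sum_congr rfl h11, Finset.sum_const, Finset.card_range, nsmul_eq_mul]
    rw [h10] at h9
    rcases mul_eq_zero.1 h9 with h | h
    · exfalso
      have : (N : L) ≠ 0 := Nat.cast_ne_zero.2 (by omega)
      exact this h
    · exact h
  have h12 : (P a * ζ) • (M - κ • (1 : End L V)) = 0 := by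
    have h13 : T ^ (N - 1) * Y = (P a * ζ) • (M - κ • (1 : End L V)) := by
      have e1 : N = (N - 1) + 1 := by omega
      have h14 : (M - κ • (1 : End L V)) * T = T * (M - κ • (1 : End L V)) := by
        rw [sub_mul, mul_sub, hMT, smul_mul_assoc, one_mul, mul_smul_comm, mul_one]
      rw [hY, h14, ← mul_assoc, ← pow_succ, ← e1, hpow, smul_mul_assoc, one_mul]
    rw [← h13, h5]
  rcases smul_eq_zero.1 h12 with h | h
  · exact absurd h hl
  · exact sub_eq_zero.1 h

end Vale.Agent.P182.H481
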