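import Vale.Agent.P182.H668.Seen
import Vale.Agent.P182.H388.KS

/-!
# Versality of a reduction, and vanishing of extensions between orthogonal summands
-/

namespace Vale.Agent.P182.H481

open LinearMap Submodule Module Vale.Agent.P182 Vale.Agent.P182.H430 Vale.Agent.P182.H578
  Vale.Agent.P182.H668

variable {k F P : Type*} [Field k] [Field F] [Algebra k F] {C : Curve k F P}
variable {E : Type*} [AddCommGroup E] [Module F E] [Module k E] [IsScalarTower k F E]
  [FiniteDimensional F E]
variable {E₂ : Type*} [AddCommGroup E₂] [Module F E₂] [Module k E₂] [IsScalarTower k F E₂]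
  [FiniteDimensional F E₂]

/-! ### generalities -/

section perp

variable {B : LinearMap.BilinForm F E}

omit [Module k E] [IsScalarTower k F E] [FiniteDimensional F E] in
theorem perp_eq_orthogonal (A : Submodule F E) :
    perp B A = LinearMap.BilinForm.orthogonal B A := by
  ext x
  rw [mem_perp, LinearMap.BilinForm.mem_orthogonal_iff]

omit [Module k E] [IsScalarTower k F E] in
theorem perp_perp (hB : ∀ x y, B x y = B y x) (nd : ∀ x, (∀ y, B x y = 0) → x = 0)
    (A : Submodule F E) : perp B (perp B A) = A := by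
  have h1 : LinearMap.BilinForm.IsRefl B := fun u v h => by rw [hB]; exact h
  have h2 : LinearMap.BilinForm.Nondegenerate B := by
    constructor
    · intro u hu
      exact nd u hu
    · intro u hu
      exact nd u fun v => by rw [hB]; exact hu v
  rw [perp_eq_orthogonal, perp_eq_orthogonal]
  exact LinearMap.BilinForm.orthogonal_orthogonal h2 h1 A

/-- adjoints between two spaces with forms -/
theorem exists_adj2 {F E E₂ : Type*} [Field F] [AddCommGroup E] [Module F E] [AddCommGroup E₂]
    [Module F E₂] [FiniteDimensional F E₂] {B : LinearMap.BilinForm F E}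
    {B₂ : LinearMap.BilinForm F E₂} (nd₂ : ∀ x, (∀ y, B₂ x y = 0) → x = 0) (s : E₂ →ₗ[F] E) :
    ∃ t : E →ₗ[F] E₂, ∀ x y, B₂ (t x) y = B x (s y) := by
  have hinj : Function.Injective B₂ := by
    rw [injective_iff_map_eq_zero]
    intro x hx
    exact nd₂ x fun y => by rw [hx]; rfl
  have hd : Module.finrank F E₂ = Module.finrank F (E₂ →ₗ[F] F) :=
    (Subspace.dual_finrank_eq (K := F) (V := E₂)).symm
  let e : E₂ ≃ₗ[F] (E₂ →ₗ[F] F) := LinearEquiv.ofInjectiveOfFinrankEq B₂ hinj hd
  have he : ∀ x, e x = B₂ x := fun x => rfl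
  refine ⟨e.symm.toLinearMap ∘ₗ (LinearMap.lcomp F F s) ∘ₗ B, fun x y => ?_⟩
  rw [← he]
  simp only [LinearMap.comp_apply, LinearEquiv.coe_coe, LinearEquiv.apply_symm_apply]
  rfl

end perp

/-- membership in the lattice of homomorphisms, tested on the allowed levels -/
theorem mem_hom_of_allowed {A : Bun C E} {B : Bun C E₂} {p : P} {f : E →ₗ[F] E₂}
    (h : ∀ b, (C.per p = 1 → b = 0) → ∀ x ∈ (A.ch p).L b, f x ∈ (B.ch p).L b) :
    f ∈ (A.hom B).lat p := by
  by_cases hp : C.per p = 1
  · exact H388.mem_hom_of_per_one hp fun x hx => h 0 (fun _ => rfl) x hx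
  · rw [Bun.mem_hom_lat]
    exact fun b x hx => h b (fun h1 => absurd h1 hp) x hx

/-- `H¹` vanishes if every principal part concentrated at one place is realised -/
theorem h1_eq_zero_of_conc {k P E : Type*} [Field k] [AddCommGroup E] [Module k E]
    {Λ : P → Submodule k E}
    (h : ∀ p x, ∃ g, (∀ q, q ≠ p → g ∈ Λ q) ∧ g - x ∈ Λ p) : h1 Λ = 0 := by
  classical
  have key : ∀ y : HO Λ, y = 0 := by
    intro y
    obtain ⟨u, rfl⟩ := cls_surjective Λ y
    rw [cls_eq_zero]
    obtain ⟨x, hx, hu⟩ := fs_exists_rep u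
    choose g hg1 hg2 using fun p => h p (x p)
    refine ⟨∑ p ∈ hx.toFinset, g p, fun q => ?_⟩
    rw [hu q]
    refine (Submodule.Quotient.eq _).2 ?_
    by_cases hq : q ∈ hx.toFinset
    · rw [← Finset.add_sum_erase _ _ hq, ← sub_sub]
      refine Submodule.sub_mem _ ?_ (Submodule.sum_mem _ fun p hp => ?_)
      · have := Submodule.neg_mem _ (hg2 q)
        rwa [neg_sub] at this
      · exact hg1 p q (Finset.ne_of_mem_erase hp).symm
    · have h0 : x q = 0 := by
        by_contra hne
        exact hq (hx.mem_toFinset.2 hne)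
      rw [h0, zero_sub]
      refine Submodule.neg_mem _ (Submodule.sum_mem _ fun p hp => ?_)
      refine hg1 p q ?_
      rintro rfl
      exact hq hp
  have hs : Subsingleton (HO Λ) := ⟨fun a b => by rw [key a, key b]⟩
  exact Module.finrank_zero_of_subsingleton

/-! ### versality of a reduction -/

section reduce

variable {N : Bun C E} {B : LinearMap.BilinForm F E} {A : Submodule F E} {N₂ : Bun C E₂}
  {B₂ : LinearMap.BilinForm F E₂}

omit [IsScalarTower k F E₂] in
/-- **A reduction of a versal bundle is versal.** -/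
theorem VV_reduce (hB : ∀ x y, B x y = B y x) (nd : ∀ x, (∀ y, B x y = 0) → x = 0)
    (h : VV N B) (hA : NoHom (N.sub A) (N.quo A)) (π : perp B A →ₗ[F] E₂)
    (surj : Function.Surjective π) (ker : ∀ g, π g = 0 ↔ (g : E) ∈ A)
    (lat : ∀ p a y, y ∈ (N₂.ch p).L a ↔ ∃ g : perp B A, (g : E) ∈ (N.ch p).L a ∧ π g = y)
    (form : ∀ u v : perp B A, B₂ (π u) (π v) = B u v) : VV N₂ B₂ := by
  have nd₂ : ∀ x, (∀ y, B₂ x y = 0) → x = 0 := by
    intro x hx
    obtain ⟨u, rfl⟩ := surj x
    have h1 : (u : E) ∈ perp B (perp B A) := mem_perp.2 fun v hv => by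
      rw [hB, ← form u ⟨v, hv⟩]
      exact hx _
    rw [perp_perp hB nd A] at h1
    exact (ker u).2 h1
  have hB₂ : ∀ x y, B₂ x y = B₂ y x := by
    intro x y
    obtain ⟨u, rfl⟩ := surj x
    obtain ⟨v, rfl⟩ := surj y
    rw [form, form, hB]
  obtain ⟨s, hs⟩ := π.exists_rightInverse_of_surjective (LinearMap.range_eq_top.2 surj)
  have hs' : ∀ y, π (s y) = y := fun y => LinearMap.congr_fun hs y
  obtain ⟨t, ht⟩ := exists_adj2 (B := B) nd₂ ((perp B A).subtype ∘ₗ s)
  have ht' : ∀ x y, B₂ (t x) y = B x (s y : E) := ht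
  have htA : ∀ x ∈ A, t x = 0 := by
    intro x hx
    refine nd₂ _ fun y => ?_
    rw [ht']
    exact mem_perp.1 (s y).2 x hx
  have htg : ∀ g : perp B A, t g = π g := by
    intro g
    rw [← sub_eq_zero]
    refine nd₂ _ fun y => ?_
    rw [map_sub, LinearMap.sub_apply, ht', ← form g (s y), hs', sub_self]
  intro p a₂ ha₂
  rw [mem_adj] at ha₂
  let a : E →ₗ[F] E := ((perp B A).subtype ∘ₗ s) ∘ₗ a₂ ∘ₗ t
  have haa : ∀ x, a x = (s (a₂ (t x)) : E) := fun _ => rfl
  have ha : a ∈ adj B (-1) := by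
    rw [mem_adj]
    intro x y
    rw [haa, haa, hB, ← ht', hB₂, ha₂, ht']
  obtain ⟨δ, D, hD, hM, hoff, hat⟩ := h p a ha
  -- `D` preserves `A`
  let τ : A →ₗ[F] (E ⧸ A) :=
    { toFun := fun x => A.mkQ (D x)
      map_add' := fun x y => by
        show A.mkQ (D ((x : E) + y)) = _
        rw [hD.1, map_add]
      map_smul' := fun c x => by
        show A.mkQ (D (c • (x : E))) = _
        have h1 : A.mkQ (x : E) = 0 := by simp
        rw [hD.2, map_add, map_smul, map_smul, h1, smul_zero, add_zero]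
        rfl }
  have hτ : τ = 0 := by
    refine hA τ (mem_HZ.2 fun q => mem_hom_of_allowed fun b hb x hx => ?_)
    by_cases hq : q = p
    · subst hq
      have h1 := hat b hb x hx
      refine ⟨D x + a x, h1, ?_⟩
      show A.mkQ (D x + a x) = A.mkQ (D x)
      have h2 : a x = 0 := by
        rw [haa, htA x x.2, map_zero, map_zero]
        rfl
      rw [h2, add_zero]
    · exact ⟨D x, hoff q hq b hb x hx, rfl⟩
  have hDA : ∀ x ∈ A, D x ∈ A := by
    intro x hx
    have h1 : A.mkQ (D x) = 0 := LinearMap.congr_fun hτ (⟨x, hx⟩ : A)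
    simpa using h1
  have hDG : ∀ x ∈ perp B A, D x ∈ perp B A := by
    intro g hg
    rw [mem_perp] at hg ⊢
    intro x hx
    have h1 := hM x g
    rw [hg x hx, map_zero, hg _ (hDA x hx), zero_add] at h1
    exact h1.symm
  have hD0 : D 0 = 0 := by
    have := hD.1 0 0
    rw [add_zero] at this
    exact left_eq_add.1 this
  have hDneg : ∀ x, D (-x) = -D x := by
    intro x
    have := hD.1 x (-x)
    rw [add_neg_cancel, hD0] at this
    exact (neg_eq_of_add_eq_zero_right this.symm).symm
  -- the induced connection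
  let D₂ : E₂ → E₂ := fun y => π ⟨D (s y), hDG _ (s y).2⟩
  have hD₂ : ∀ g : perp B A, D₂ (π g) = π ⟨D g, hDG _ g.2⟩ := by
    intro g
    have h1 : ((s (π g) - g : perp B A) : E) ∈ A := by
      rw [← ker, map_sub, hs', sub_self]
    have h2 : π (⟨D (s (π g)), hDG _ (s (π g)).2⟩ - ⟨D g, hDG _ g.2⟩) = 0 := by
      rw [ker]
      show D (s (π g)) - D g ∈ A
      have h3 : D (s (π g)) - D g = D ((s (π g) - g : perp B A) : E) := by
        rw [Submodule.coe_sub, sub_eq_add_neg (s (π g) : E), hD.1, hDneg, sub_eq_add_neg]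
      rw [h3]
      exact hDA _ h1
    rw [map_sub, sub_eq_zero] at h2
    exact h2
  refine ⟨δ, D₂, ⟨fun x y => ?_, fun f x => ?_⟩, fun x y => ?_, fun q hq b hb y hy => ?_,
    fun b hb y hy => ?_⟩
  · show π _ = π _ + π _
    rw [← map_add]
    congr 1
    apply Subtype.ext
    show D (s (x + y) : E) = D (s x) + D (s y)
    rw [map_add, Submodule.coe_add, hD.1]
  · have h1 : D₂ (f • x) = π (f • ⟨D (s x), hDG _ (s x).2⟩ + δ f • s x) := by
      show π _ = π _
      congr 1
      apply Subtype.ext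
      show D (s (f • x) : E) = f • D (s x) + δ f • (s x : E)
      rw [map_smul, Submodule.coe_smul, hD.2]
    rw [h1, map_add, map_smul, map_smul, hs']
  · obtain ⟨u, rfl⟩ := surj x
    obtain ⟨v, rfl⟩ := surj y
    rw [hD₂, hD₂, form, form, form]
    exact hM u v
  · obtain ⟨g, hg, rfl⟩ := (lat q b y).1 hy
    rw [hD₂]
    exact (lat q b _).2 ⟨_, hoff q hq b hb g hg, rfl⟩
  · obtain ⟨g, hg, rfl⟩ := (lat p b y).1 hy
    have h1 : a (g : E) = (s (a₂ (π g)) : E) := by rw [haa, htg]
    refine (lat p b _).2 ⟨⟨D g, hDG _ g.2⟩ + s (a₂ (π g)), ?_, ?_⟩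
    · show D g + (s (a₂ (π g)) : E) ∈ _
      rw [← h1]
      exact hat b hb g hg
    · rw [map_add, hs', hD₂]

omit [IsScalarTower k F E₂] in
/-- the reduction of `A^⊥` -/
theorem VV_subQ (hB : ∀ x y, B x y = B y x) (nd : ∀ x, (∀ y, B x y = 0) → x = 0)
    (h : VV N B) (hA : NoHom (N.sub A) (N.quo A)) {π : perp B A →ₗ[F] E₂}
    (hq : SubQ N B (perp B A) N₂ B₂ π) : VV N₂ B₂ := by
  refine VV_reduce hB nd h hA π hq.surj (fun g => ?_) hq.lat hq.form
  rw [hq.ker, perp_perp hB nd A]

end reduce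

/-! ### extensions between orthogonal summands -/

section ext

variable {N : Bun C E} {B : LinearMap.BilinForm F E}

theorem VV_ext_aux (hB : ∀ x y, B x y = B y x) (nd : ∀ x, (∀ y, B x y = 0) → x = 0)
    (h : VV N B) (U V : Submodule F E) (e : E →ₗ[F] E) (e1 : ∀ x, e x ∈ U)
    (e2 : ∀ x, x - e x ∈ V) (e3 : ∀ x ∈ U, e x = x) (e4 : ∀ x ∈ V, e x = 0)
    (e5 : ∀ x ∈ U, ∀ y ∈ V, B x y = 0)
    (hl : ∀ p a x, x ∈ (N.ch p).L a → e x ∈ (N.ch p).L a) :
    h1 ((N.sub U).hom (N.sub V)).lat = 0 := by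
  refine h1_eq_zero_of_conc fun p T => ?_
  let T' : E →ₗ[F] E := V.subtype ∘ₗ T ∘ₗ (e.codRestrict U e1)
  have hT' : ∀ x, T' x = (T ⟨e x, e1 x⟩ : E) := fun _ => rfl
  have hT'V : ∀ x, T' x ∈ V := fun x => (T ⟨e x, e1 x⟩).2
  obtain ⟨S, hS⟩ := exists_adj nd T'
  have hSU : ∀ x ∈ U, S x = 0 := by
    intro x hx
    refine nd _ fun y => ?_
    rw [hS]
    exact e5 x hx _ (hT'V y)
  have ha : T' - S ∈ adj B (-1) := by
    rw [mem_adj]
    intro x y
    have h1 : B x (S y) = B (T' x) y := by rw [hB, hS, hB]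
    rw [LinearMap.sub_apply, LinearMap.sub_apply, map_sub, map_sub, LinearMap.sub_apply, hS, h1]
    ring
  obtain ⟨δ, D, hD, -, hoff, hat⟩ := h p (T' - S) ha
  let κ : U →ₗ[F] V :=
    { toFun := fun x => ⟨D x - e (D x), e2 _⟩
      map_add' := fun x y => by
        apply Subtype.ext
        show D ((x : E) + y) - e (D ((x : E) + y)) = (D x - e (D x)) + (D y - e (D y))
        rw [hD.1, map_add]
        abel
      map_smul' := fun c x => by
        apply Subtype.ext
        show D (c • (x : E)) - e (D (c • (x : E))) = c • (D x - e (D x))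
        rw [hD.2, map_add, map_smul, map_smul, e3 x x.2, smul_sub]
        abel }
  have hκ : ∀ x : U, (κ x : E) = D x - e (D x) := fun _ => rfl
  refine ⟨-κ, fun q hq => mem_hom_of_allowed fun b hb x hx => ?_,
    mem_hom_of_allowed fun b hb x hx => ?_⟩
  · have h1 := hoff q hq b hb x hx
    have h2 : (-κ x : V) ∈ ((N.sub V).ch q).L b := by
      refine Submodule.neg_mem _ ?_
      show (κ x : E) ∈ (N.ch q).L b
      rw [hκ]
      exact Submodule.sub_mem _ h1 (hl q b _ h1)
    exact h2
  · have h1 := hat b hb x hx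
    have h2 : D x + (T' - S) x = D x + T x := by
      rw [LinearMap.sub_apply, hSU x x.2, sub_zero, hT']
      congr 2
      exact congrArg T (Subtype.ext (e3 x x.2))
    rw [h2] at h1
    have h3 : (-(κ x + T x) : V) ∈ ((N.sub V).ch p).L b := by
      refine Submodule.neg_mem _ ?_
      show (κ x : E) + T x ∈ (N.ch p).L b
      have h4 : (κ x : E) + T x = (D x + T x) - e (D x + T x) := by
        rw [hκ, map_add, e4 (T x : E) (T x).2, add_zero]
        abel
      rw [h4]
      exact Submodule.sub_mem _ h1 (hl p b _ h1)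
    have h5 : (-κ - T) x = -(κ x + T x) := by
      rw [LinearMap.sub_apply, LinearMap.neg_apply, neg_add, sub_eq_add_neg]
    rw [h5]
    exact h3

omit [Module k E] [IsScalarTower k F E] in
/-- the complement of a projection along the orthogonal -/
theorem sub_mem_perp {U : Submodule F E} {e : E →ₗ[F] E} (e3 : ∀ x ∈ U, e x = x)
    (e4 : ∀ x ∈ perp B U, e x = 0) (hB : ∀ x y, B x y = B y x) (x : E) : x - e x ∈ perp B U := by
  let j : U →ₗ[F] Dual F U :=
    { toFun := fun u => (B u) ∘ₗ U.subtype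
      map_add' := fun u v => by
        apply LinearMap.ext
        intro w
        show B ((u : E) + v) w = B u w + B v w
        rw [map_add, LinearMap.add_apply]
      map_smul' := fun c u => by
        apply LinearMap.ext
        intro w
        show B (c • (u : E)) w = c • B u w
        rw [map_smul, LinearMap.smul_apply] }
  have hj : ∀ u w : U, j u w = B u w := fun _ _ => rfl
  have hinj : Function.Injective j := by
    rw [injective_iff_map_eq_zero]
    intro u hu
    have h1 : (u : E) ∈ perp B U := mem_perp.2 fun w hw => by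
      rw [hB]
      exact LinearMap.congr_fun hu (⟨w, hw⟩ : U)
    have h2 := e4 _ h1
    rw [e3 _ u.2] at h2
    exact Subtype.ext h2
  have hsurj : Function.Surjective j :=
    (LinearMap.injective_iff_surjective_of_finrank_eq_finrank
      (Subspace.dual_finrank_eq (K := F) (V := U)).symm).1 hinj
  obtain ⟨u, hu⟩ := hsurj ((B x) ∘ₗ U.subtype)
  have h1 : x - u ∈ perp B U := mem_perp.2 fun w hw => by
    have h2 : B u w = B x w := LinearMap.congr_fun hu (⟨w, hw⟩ : U)
    rw [map_sub, hB w x, hB w u, h2, sub_self]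
  have h2 : e x = u := by
    have h3 := e4 _ h1
    rw [map_sub, e3 _ u.2, sub_eq_zero] at h3
    exact h3
  rw [h2]
  exact h1

/-- **There are no extensions between orthogonal summands of a versal bundle.** -/
theorem VV_ext (hB : ∀ x y, B x y = B y x) (nd : ∀ x, (∀ y, B x y = 0) → x = 0)
    (h : VV N B) (U : Submodule F E) (e : E →ₗ[F] E) (e1 : ∀ x, e x ∈ U)
    (e3 : ∀ x ∈ U, e x = x) (e4 : ∀ x ∈ perp B U, e x = 0)
    (hl : ∀ p a x, x ∈ (N.ch p).L a → e x ∈ (N.ch p).L a) :
    h1 ((N.sub U).hom (N.sub (perp B U))).lat = 0 ∧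
      h1 ((N.sub (perp B U)).hom (N.sub U)).lat = 0 := by
  have e2 := sub_mem_perp e3 e4 hB
  refine ⟨VV_ext_aux hB nd h U (perp B U) e e1 e2 e3 e4 (fun x hx y hy => mem_perp.1 hy x hx) hl,
    VV_ext_aux hB nd h (perp B U) U (LinearMap.id - e) e2 ?_ ?_ ?_ ?_ ?_⟩
  · intro x
    rw [LinearMap.sub_apply, LinearMap.id_apply, sub_sub_cancel]
    exact e1 x
  · intro x hx
    rw [LinearMap.sub_apply, LinearMap.id_apply, e4 x hx, sub_zero]
  · intro x hx
    rw [LinearMap.sub_apply, LinearMap.id_apply, e3 x hx, sub_self]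
  · intro x hx y hy
    rw [hB]
    exact mem_perp.1 hx y hy
  · intro p a x hx
    exact Submodule.sub_mem _ hx (hl p a x hx)

end ext

end Vale.Agent.P182.H481
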